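import Vale.Agent.P145H.Stmt
import Vale.Agent.P152H.K
import Vale.Agent.P145W.Gff

/-! The tested heights as a family close to the smoothed field. -/

open MeasureTheory Filter Topology Vale.Agent.P152 Vale.Agent.P145

noncomputable section

namespace Vale.Agent.P145H

variable {δ : ℝ} {φ f : ℂ → ℝ}

theorem a_fin (hδ : 0 < δ) (h : HasCompactSupport φ) :
    {v : Z2 | φ (δ * (v.1 + v.2 * Complex.I)) ≠ 0}.Finite := by
  obtain ⟨D, hD⟩ := C4.c4ba_supp h
  refine ((Set.finite_Icc (-⌈D / δ⌉) ⌈D / δ⌉).prod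
    (Set.finite_Icc (-⌈D / δ⌉) ⌈D / δ⌉)).subset fun v hv => ?_
  have h := hD _ hv
  rw [norm_mul, Complex.norm_real, Real.norm_of_nonneg hδ.le, mul_comm, ← le_div_iff₀ hδ] at h
  have h1 := ((Complex.abs_re_le_norm _).trans h).trans (Int.le_ceil _)
  have h2 := ((Complex.abs_im_le_norm _).trans h).trans (Int.le_ceil _)
  simp only [Complex.add_re, Complex.add_im, Complex.mul_re, Complex.mul_im, Complex.intCast_re,
    Complex.intCast_im, Complex.I_re, Complex.I_im, mul_zero, mul_one, sub_zero, add_zero,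
    zero_add, ← Int.cast_abs, Int.cast_le, abs_le] at h1 h2
  exact ⟨h1, h2⟩

theorem a_eq {T : Finset Z2} (hT : ∀ v : Z2, φ (δ * (v.1 + v.2 * Complex.I)) ≠ 0 → v ∈ T) :
    field δ φ = fun H => δ ^ 2 * ∑ v ∈ T, (H v : ℝ) * φ (δ * (v.1 + v.2 * Complex.I)) :=
  funext fun H => by
    rw [field, finsum_eq_sum_of_support_subset]
    exact fun v hv => hT v (right_ne_zero_of_mul hv)

theorem a_meas {m : MeasurableSpace (Z2 → ℤ)} (hδ : 0 < δ) (h : HasCompactSupport φ)
    (hm : ∀ v : Z2, φ (δ * (v.1 + v.2 * Complex.I)) ≠ 0 → Measurable[m] fun H : Z2 → ℤ => H v) :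
    Measurable[m] (field δ φ) := by
  rw [a_eq fun v hv => (a_fin hδ h).mem_toFinset.2 hv]
  exact (Finset.measurable_sum _ fun v hv => ((Measurable.of_discrete
    (f := fun n : ℤ => (n : ℝ))).comp (hm v ((a_fin hδ h).mem_toFinset.1 hv))).mul_const _).const_mul _

theorem a_int {Q : Measure (Z2 → ℤ)} (hI : ∀ v, Integrable (fun H : Z2 → ℤ => (H v : ℝ)) Q)
    (hδ : 0 < δ) (h : HasCompactSupport φ) : Integrable (field δ φ) Q := by
  rw [a_eq fun v hv => (a_fin hδ h).mem_toFinset.2 hv]
  exact (integrable_finsetSum _ fun v _ => (hI v).mul_const _).const_mul _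

theorem a_sum (hδ : 0 < δ) {ι : Type} [Fintype ι] (t : ι → ℝ) {F : ι → ℂ → ℝ}
    (hF : ∀ j, HasCompactSupport (F j)) (H : Z2 → ℤ) :
    field δ (fun z => ∑ j, t j * F j z) H = ∑ j, t j * field δ (F j) H := by
  classical
  have m : ∀ j (v : Z2), F j (δ * (v.1 + v.2 * Complex.I)) ≠ 0 →
      v ∈ Finset.univ.biUnion fun j => (a_fin hδ (hF j)).toFinset := fun j v hv =>
    Finset.mem_biUnion.2 ⟨j, Finset.mem_univ _, (a_fin hδ (hF j)).mem_toFinset.2 hv⟩
  rw [a_eq (T := Finset.univ.biUnion fun j => (a_fin hδ (hF j)).toFinset) fun v hv => ?_]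
  · simp only [fun j => a_eq (m j), Finset.mul_sum]
    rw [Finset.sum_comm]
    exact Finset.sum_congr rfl fun _ _ => Finset.sum_congr rfl fun _ _ => by ring
  · obtain ⟨j, -, hj⟩ := Finset.exists_ne_zero_of_sum_ne_zero hv
    exact m j v (right_ne_zero_of_mul hj)

theorem ce_map {Ω Ω' : Type} {m : MeasurableSpace Ω'} [m0 : MeasurableSpace Ω]
    [m1 : MeasurableSpace Ω'] {μ : Measure Ω} [IsProbabilityMeasure μ] {π : Ω → Ω'}
    (hπ : Measurable π) (hm : m ≤ m1) {F : Ω' → ℝ} (hF : Integrable F (μ.map π)) :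
    (fun x => condExp m (μ.map π) F (π x)) =ᵐ[μ] condExp (m.comap π) μ fun x => F (π x) := by
  have hle : m.comap π ≤ m0 := (MeasurableSpace.comap_mono hm).trans hπ.comap_le
  have i1 : Integrable (fun x => condExp m (μ.map π) F (π x)) μ :=
    integrable_condExp.comp_measurable hπ
  refine ae_eq_condExp_of_forall_setIntegral_eq hle (hF.comp_measurable hπ)
    (fun s _ _ => i1.integrableOn) ?_
    (stronglyMeasurable_condExp.comp_measurable (comap_measurable π)).aestronglyMeasurable
  rintro _ ⟨t, ht, rfl⟩ -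
  rw [← setIntegral_map (hm t ht) integrable_condExp.1 hπ.aemeasurable,
    ← setIntegral_map (hm t ht) hF.1 hπ.aemeasurable, setIntegral_condExp hm hF ht]

theorem a_cs {Ω : Type} [MeasurableSpace Ω] {P : Measure Ω} [IsProbabilityMeasure P] {X : Ω → ℝ}
    (h1 : Integrable X P) (h2 : Integrable (fun k => X k ^ 2) P) :
    ∫ k, |X k| ∂P ≤ √(∫ k, X k ^ 2 ∂P) := by
  refine Real.le_sqrt_of_sq_le ?_
  set m := ∫ k, |X k| ∂P with hm
  have i1 : Integrable (fun k => 2 * m * |X k|) P := h1.abs.const_mul _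
  have h3 : ∫ k, (2 * m * |X k| - m ^ 2) ∂P ≤ ∫ k, X k ^ 2 ∂P :=
    integral_mono (i1.sub (integrable_const _)) h2 fun k => by
      have h4 := sq_nonneg (|X k| - m)
      have h5 := sq_abs (X k)
      simp only
      nlinarith
  rw [integral_sub i1 (integrable_const _), integral_const_mul, integral_const, probReal_univ,
    one_smul, ← hm] at h3
  linarith

/-- Vertex heights from face heights. -/
def hm (k : ℤ × ℤ → ℤ) (v : Z2) : ℤ := k (ev v) / 2

/-- The inverse of the rotation of test functions. -/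
def unr (f : ℂ → ℝ) (z : ℂ) : ℝ := 4 * f ((1 + Complex.I) * z)

theorem hm_meas : Measurable hm := measurable_pi_lambda _ fun v =>
  (Measurable.of_discrete (f := fun n : ℤ => n / 2)).comp (measurable_pi_apply (ev v))

theorem rot_unr (f : ℂ → ℝ) : rot (unr f) = f := funext fun z => by
  simp only [rot, unr, mul_div_cancel₀ z rot_ne]
  ring

theorem unr_rot (φ : ℂ → ℝ) : unr (rot φ) = φ := funext fun z => by
  simp only [rot, unr, mul_div_cancel_left₀ z rot_ne]
  ring

theorem unr_cs (h : HasCompactSupport f) : HasCompactSupport (unr f) :=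
  (h.comp_homeomorph (Homeomorph.mulLeft₀ (1 + Complex.I) rot_ne)).comp_left
    (g := fun x : ℝ => 4 * x) (mul_zero _)

theorem low_le : low ≤ (inferInstance : MeasurableSpace (Z2 → ℤ)) :=
  Measurable.comap_le (measurable_pi_lambda _ fun x => measurable_pi_apply x.1)

theorem low_apply {v : Z2} (hx : v.1 + v.2 ≤ 0) : Measurable[low] fun H : Z2 → ℤ => H v :=
  (measurable_pi_apply (⟨v, hx⟩ : {v : Z2 // v.1 + v.2 ≤ 0})).comp
    (comap_measurable fun (H : Z2 → ℤ) (v : {v : Z2 // v.1 + v.2 ≤ 0}) => H v)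

variable {P : Measure (Cfg ℤ ℤ)} [IsProbabilityMeasure P] {σ : ℝ}

theorem a_map : (P.map ht).map hm = P.map hmap := Measure.map_map hm_meas P152Z.tr_hm

theorem a_hI (v : Z2) : Integrable (fun H : Z2 → ℤ => (H v : ℝ)) (P.map hmap) := by
  have m : Measurable fun H : Z2 → ℤ => (H v : ℝ) :=
    (Measurable.of_discrete (f := fun n : ℤ => (n : ℝ))).comp (measurable_pi_apply v)
  refine (integrable_map_measure m.aestronglyMeasurable hmap_meas.aemeasurable).2
    (((P152Z.tr_bm (ev v)).int P).mono (m.comp hmap_meas).aestronglyMeasurable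
      (ae_of_all _ fun ω => ?_))
  simp only [Function.comp, Real.norm_eq_abs, ← Int.cast_abs, Int.cast_le, hmap,
    Int.abs_eq_natAbs]
  omega

theorem near (hG : P152Z.Good (P.map ht)) (hV : P152Z.LogV P σ) :
    P152H.Near (P.map ht) (low.comap hm) fun δ f k => field δ (unr f) (hm k) := by
  refine ⟨?_, fun δ hδ g hg => ⟨?_, ?_⟩, fun δ hδ g hg hs => ?_, fun δ hδ g y hg hy k => ?_,
    fun g hg => ?_⟩
  · rw [low, MeasurableSpace.comap_comp]
    exact Measurable.comap_le (@measurable_pi_lambda _ _ _ P152H.low _ _ fun v =>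
      (Measurable.of_discrete (f := fun n : ℤ => n / 2)).comp (P152H.low_apply (x := ev v) v.2))
  · exact (a_meas hδ (unr_cs hg.2) fun v _ => measurable_pi_apply v).comp hm_meas
  · exact (a_int (a_map (P := P) ▸ a_hI) hδ (unr_cs hg.2)).comp_measurable hm_meas
  · refine ((a_meas (m := low) hδ (unr_cs hg.conj.2) fun v hv => low_apply ?_).comp
      (comap_measurable hm)).stronglyMeasurable
    have h1 := hs (subset_tsupport g (right_ne_zero_of_mul hv))
    simp only [Set.mem_ofPred_eq, Complex.conj_im, Complex.add_re, Complex.add_im, Complex.mul_re,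
      Complex.mul_im, Complex.intCast_re, Complex.intCast_im, Complex.I_re, Complex.I_im,
      Complex.ofReal_re, Complex.ofReal_im, Complex.one_re, Complex.one_im] at h1
    have h2 : ((v.1 + v.2 : ℤ) : ℝ) ≤ 0 := by
      push_cast
      nlinarith
    exact_mod_cast h2
  · have h1 := a_sum hδ ![1, -1, -1, 1]
      (F := ![unr g, unr (P152Z.cj g), unr y, unr (P152Z.cj y)]) (fun j => by
        fin_cases j
        exacts [unr_cs hg.2, unr_cs hg.conj.2, unr_cs hy.2, unr_cs hy.conj.2]) (hm k)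
    have h2 : (fun z => ∑ j, ![1, -1, -1, 1] j *
        ![unr g, unr (P152Z.cj g), unr y, unr (P152Z.cj y)] j z) =
        unr fun z => P152H.odd g z - P152H.odd y z := by
      funext z
      simp [Fin.sum_univ_four, P152H.odd, P152Z.cj, unr]
      ring
    rw [h2] at h1
    rw [h1]
    simp [Fin.sum_univ_four]
    ring
  · have h := (P145W.nearW hG hV hg).sqrt.add (P152Z.tr_close hG hV hg).2.sqrt
    simp only [Real.sqrt_zero, add_zero] at h
    refine squeeze_zero' (Eventually.of_forall fun δ => integral_nonneg fun ω => abs_nonneg _) ?_ h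
    filter_upwards [Ioc_mem_nhdsGT one_pos] with δ hδ
    have a := (fldS_bm δ hg).sub (C4.fld_bm hδ.1 hg)
    have b := (P152Z.tr_close hG hV hg).1 δ hδ.1 hδ.2
    have m : Measurable fun k => |field δ (unr g) (hm k) - P152Z.fld δ g k| :=
      (((a_meas hδ.1 (unr_cs hg.2.1) fun v _ => measurable_pi_apply v).comp hm_meas).sub
        (P152Z.tr_fm δ hg)).abs
    rw [integral_map P152Z.tr_hm.aemeasurable m.aestronglyMeasurable]
    refine le_trans ?_ (add_le_add (a_cs (a.int P) ((a.pow 2).int P))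
      (a_cs (b.int P) ((b.pow 2).int P)))
    rw [← integral_add (a.int P).abs (b.int P).abs]
    refine integral_mono_of_nonneg (ae_of_all _ fun ω => abs_nonneg _)
      ((a.int P).abs.add (b.int P).abs) (ae_of_all _ fun ω => ?_)
    have e : field δ (unr g) (hm (ht ω)) = fldS δ g ω :=
      (field_rot δ (unr g) ω).trans (by rw [rot_unr])
    simp only [e]
    exact (abs_sub_le _ _ _).trans (add_le_add le_rfl (abs_sub_comm _ _).le)

end Vale.Agent.P145H
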