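import Vale.Agent.P145H.A
import Vale.Agent.P145W.Main

/-! The half plane limit. -/

open MeasureTheory Filter Topology Vale.Agent.P152 Vale.Agent.P145

noncomputable section

namespace Vale.Agent.P145H

variable {δ σ : ℝ} {φ ψ : ℂ → ℝ} {P : Measure (Cfg ℤ ℤ)} [IsProbabilityMeasure P]

theorem testH_rot (h : TestH φ) : P152H.TestH (rot φ) := by
  refine ⟨(h.1.comp (contDiff_id.div_const _)).div_const _, ?_, ?_⟩
  · have h1 := h.2.1.comp_homeomorph (Homeomorph.mulRight₀ (1 + Complex.I)⁻¹ (inv_ne_zero rot_ne))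
    exact h1.comp_left (g := fun x : ℝ => x / 4) (zero_div _)
  · refine (closure_minimal (t := (fun z => z / (1 + Complex.I)) ⁻¹' tsupport φ) (fun z hz => ?_)
      ((isClosed_tsupport φ).preimage (continuous_id.div_const _))).trans fun z hz => ?_
    · exact subset_tsupport φ fun e => hz (by simp only [rot, e, zero_div])
    · have h1 := h.2.2 hz
      simp only [Set.mem_ofPred_eq, Complex.div_re, Complex.div_im, Complex.normSq_apply,
        Complex.add_re, Complex.add_im, Complex.one_re, Complex.one_im, Complex.I_re,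
        Complex.I_im] at h1 ⊢
      norm_num at h1
      linarith

theorem odd_rot (φ : ℂ → ℝ) : P152H.odd (rot φ) = rot (odd φ) := funext fun z => by
  have e : -Complex.I * (starRingEnd ℂ) (z / (1 + Complex.I)) =
      (starRingEnd ℂ) z / (1 + Complex.I) := by
    have n : (1 - Complex.I : ℂ) ≠ 0 := fun h => by simpa using congrArg Complex.re h
    rw [map_div₀, map_add, map_one, Complex.conj_I, ← sub_eq_add_neg, ← mul_div_assoc,
      div_eq_div_iff n rot_ne]
    linear_combination (-(starRingEnd ℂ) z) * Complex.I_sq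
  simp only [P152H.odd, rot, odd, e, sub_div]

theorem test_odd (h : TestH φ) : IsTest (odd φ) := by
  have h1 := (testH_rot h).odd
  rw [odd_rot] at h1
  refine ⟨unr_rot (odd φ) ▸ contDiff_const.mul (h1.1.comp (contDiff_const.mul contDiff_id)),
    unr_rot (odd φ) ▸ unr_cs h1.2.1, ?_⟩
  have h2 := h1.2.2
  unfold rot at h2
  rw [integral_div, int_rot] at h2
  linarith

theorem covH_rot (σ : ℝ) (h : TestH φ) (h' : TestH ψ) :
    σ ^ 2 * P152H.covH (rot φ) (rot ψ) = (σ / √(8 * Real.pi)) ^ 2 * greenH φ ψ := by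
  have pp := Real.pi_pos
  rw [P152H.covH, P152Z.tr_cov (testH_rot h).odd (testH_rot h').odd, odd_rot, odd_rot,
    cov_rot (test_odd h) (test_odd h'), greenH, div_pow, Real.sq_sqrt (by positivity)]
  ring

theorem cen_meas {Q : Measure (Z2 → ℤ)} (hδ : 0 < δ) (h : TestH φ) : Measurable (cen Q δ φ) :=
  (a_meas hδ h.2.1 fun v _ => measurable_pi_apply v).sub
    (stronglyMeasurable_condExp.mono low_le).measurable

theorem half_Q (h : P152Z.Good (P.map ht)) (hV : P152Z.LogV P σ) (hC : P152Z.CovT (P.map ht) σ)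
    (hχ : P152H.Chi (P.map ht) σ) (hφ : TestH φ) {A : ℝ → Set (Z2 → ℤ)}
    (hA : ∀ δ, MeasurableSet[low] (A δ)) :
    Tendsto (fun δ => ∫ k in A δ, Complex.exp (cen (P.map hmap) δ φ k * Complex.I) ∂(P.map hmap) -
      ((Real.exp (-(σ ^ 2 * P152H.covH (rot φ) (rot φ) / 2)) * (P.map hmap).real (A δ) : ℝ) : ℂ))
      (𝓝[>] 0) (𝓝 0) := by
  haveI : IsProbabilityMeasure (P.map ht) :=
    Measure.isProbabilityMeasure_map P152Z.tr_hm.aemeasurable
  refine (P152H.half_near (near h hV) h hC hχ (testH_rot hφ) (A := fun δ => hm ⁻¹' A δ)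
    fun δ => (near h hV).le _ ⟨A δ, hA δ, rfl⟩).congr' ?_
  filter_upwards [self_mem_nhdsWithin] with δ (hδ : 0 < δ)
  have i := a_int (a_hI (P := P)) hδ hφ.2.1
  have m : Measurable fun k => Complex.exp (cen (P.map hmap) δ φ k * Complex.I) :=
    Complex.measurable_exp.comp ((Complex.measurable_ofReal.comp (cen_meas hδ hφ)).mul_const _)
  rw [← a_map] at i m ⊢
  rw [setIntegral_map (low_le _ (hA δ)) m.aestronglyMeasurable hm_meas.aemeasurable,
    map_measureReal_apply hm_meas (low_le _ (hA δ)), unr_rot]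
  congr 1
  refine integral_congr_ae (ae_restrict_of_ae ?_)
  filter_upwards [ce_map hm_meas low_le i] with k hk
  rw [cen, hk]

theorem testH_sum {ι : Type} [Fintype ι] (t : ι → ℝ) {f : ι → ℂ → ℝ} (hf : ∀ j, TestH (f j)) :
    TestH fun z => ∑ j, t j * f j z := by
  have hc := P152Z.Cc.sum Finset.univ (F := fun j z => t j * f j z) fun j _ =>
    P152Z.Cc.mul ⟨(hf j).1, (hf j).2.1⟩ contDiff_const
  refine ⟨hc.1, hc.2, ?_⟩
  refine (closure_minimal (t := ⋃ j, tsupport (f j)) (fun z hz => ?_)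
    (isClosed_iUnion_of_finite fun j => isClosed_tsupport _)).trans
    (Set.iUnion_subset fun j => (hf j).2.2)
  obtain ⟨j, -, hj⟩ := Finset.exists_ne_zero_of_sum_ne_zero hz
  exact Set.mem_iUnion.2 ⟨j, subset_tsupport _ (right_ne_zero_of_mul hj)⟩

theorem cen_sum (hδ : 0 < δ) {ι : Type} [Fintype ι] (t : ι → ℝ) {f : ι → ℂ → ℝ}
    (hf : ∀ j, TestH (f j)) :
    ∀ᵐ k ∂(P.map hmap), cen (P.map hmap) δ (fun z => ∑ j, t j * f j z) k = ∑ j, t j * cen (P.map hmap) δ (f j) k := by
  have e : field δ (fun z => ∑ j, t j * f j z) = ∑ j, t j • field δ (f j) := by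
    funext k
    simp [a_sum hδ t fun j => (hf j).2.1]
  have h1 := condExp_finsetSum (μ := P.map hmap) (s := Finset.univ) (f := fun j => t j • field δ (f j))
    (fun j _ => (a_int a_hI hδ (hf j).2.1).smul (t j)) low
  have h2 : ∀ᵐ k ∂(P.map hmap), ∀ j, condExp low (P.map hmap) (t j • field δ (f j)) k =
      (t j • condExp low (P.map hmap) (field δ (f j))) k :=
    ae_all_iff.2 fun j => condExp_smul (t j) _ low
  filter_upwards [h1, h2] with k k1 k2
  simp only [cen, e, k1, Finset.sum_apply, k2, Pi.smul_apply, smul_eq_mul, mul_sub,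
    Finset.sum_sub_distrib]

theorem convH (h : P152Z.Good (P.map ht)) (hV : P152Z.LogV P σ) (hC : P152Z.CovT (P.map ht) σ)
    (hχ : P152H.Chi (P.map ht) σ) : ConvH (P.map hmap) (σ / √(8 * Real.pi)) := by
  intro m ψ hψ
  haveI : IsProbabilityMeasure (P.map ht) :=
    Measure.isProbabilityMeasure_map P152Z.tr_hm.aemeasurable
  haveI : IsProbabilityMeasure (P.map hmap) :=
    Measure.isProbabilityMeasure_map hmap_meas.aemeasurable
  simp only [← fun j k => covH_rot σ (hψ j) (hψ k)]
  set f : Fin m → ℂ → ℝ := fun j => rot (ψ j) with hfd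
  have hf : ∀ j, P152H.TestH (f j) := fun j => testH_rot (hψ j)
  have er : ∀ t : Fin m → ℝ, rot (fun z => ∑ j, t j * ψ j z) = fun z => ∑ j, t j * f j z :=
    fun t => funext fun z => by simp only [rot, hfd, Finset.sum_div, mul_div_assoc]
  set S : Matrix (Fin m) (Fin m) ℝ := Matrix.of fun j k => σ ^ 2 * P152H.covH (f j) (f k) with hS
  have hq : ∀ t : Fin m → ℝ, t ⬝ᵥ S.mulVec t =
      σ ^ 2 * P152H.covH (fun z => ∑ j, t j * f j z) fun z => ∑ j, t j * f j z := fun t => by
    have e : P152H.odd (fun z => ∑ j, t j * f j z) = fun z => ∑ j, t j * P152H.odd (f j) z := by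
      funext z
      simp only [P152H.odd, mul_sub, Finset.sum_sub_distrib]
    rw [P152H.covH, e, ← mul_div_assoc, P152Z.d3_cov h hC t fun j => (hf j).odd]
    simp only [hS, dotProduct, Matrix.mulVec, Matrix.of_apply, Finset.mul_sum, P152H.covH,
      Finset.sum_div]
    exact Finset.sum_congr rfl fun _ _ => Finset.sum_congr rfl fun _ _ => by ring
  have hP : S.PosSemidef := by
    refine Matrix.PosSemidef.of_dotProduct_mulVec_nonneg ?_ fun t => ?_
    · ext j k
      simp [hS, P152H.covH, P152Z.cov_symm (P152H.odd (f j))]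
    · rw [star_trivial, hq, P152H.covH]
      have := P152Z.cov_nonneg (P152H.odd fun z => ∑ j, t j * f j z)
      positivity
  refine ⟨hP, fun ε A hε hA hA' φ => ?_⟩
  have hp : ∀ δ, 0 < (P.map hmap).real (A δ) := fun δ => hε.trans_le (hA' δ)
  have hne : ∀ δ, (P.map hmap) (A δ) ≠ 0 := fun δ h0 => (hp δ).ne' (by simp [measureReal_def, h0])
  have ip : ∀ δ, IsProbabilityMeasure (ProbabilityTheory.cond (P.map hmap) (A δ)) := fun δ => ProbabilityTheory.cond_isProbabilityMeasure (hne δ)
  set Y : ℝ → (Z2 → ℤ) → EuclideanSpace ℝ (Fin m) :=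
    fun δ ω => WithLp.toLp 2 fun j => cen (P.map hmap) δ (ψ j) ω with hY
  have mY : ∀ δ, 0 < δ → Measurable (Y δ) := fun δ hδ =>
    (WithLp.measurable_toLp 2 _).comp (measurable_pi_lambda _ fun j => cen_meas hδ (hψ j))
  refine tendsto_iff_seq_tendsto.2 fun u hu => ?_
  have hpos : ∀ᶠ n in atTop, 0 < u n := hu.eventually self_mem_nhdsWithin
  set u' : ℕ → ℝ := fun n => if 0 < u n then u n else 1 with hu'
  have h0 : ∀ n, 0 < u' n := fun n => by
    simp only [hu']
    split_ifs with h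
    exacts [h, one_pos]
  have he : u' =ᶠ[atTop] u := hpos.mono fun n h => if_pos h
  have hu2 : Tendsto u' atTop (𝓝[>] 0) := hu.congr' he.symm
  let μ : ℕ → ProbabilityMeasure (EuclideanSpace ℝ (Fin m)) := fun n =>
    ⟨(ProbabilityTheory.cond (P.map hmap) (A (u' n))).map (Y (u' n)),
      Measure.isProbabilityMeasure_map (mY _ (h0 n)).aemeasurable⟩
  let μ₀ : ProbabilityMeasure (EuclideanSpace ℝ (Fin m)) :=
    ⟨ProbabilityTheory.multivariateGaussian 0 S, inferInstance⟩
  have hT : Tendsto μ atTop (𝓝 μ₀) := by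
    refine ProbabilityMeasure.tendsto_iff_tendsto_charFun.2 fun t => ?_
    have h1 := (half_Q h hV hC hχ (testH_sum t hψ) hA).comp hu2
    rw [er] at h1
    set c := Real.exp
      (-(σ ^ 2 * P152H.covH (fun z => ∑ j, t j * f j z) (fun z => ∑ j, t j * f j z) / 2)) with hc
    have e1 : charFun (μ₀ : Measure (EuclideanSpace ℝ (Fin m))) t = (c : ℂ) := by
      change charFun (ProbabilityTheory.multivariateGaussian 0 S) t = _
      rw [ProbabilityTheory.charFun_multivariateGaussian hP, hc, ← hq]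
      simp
    rw [e1, tendsto_iff_norm_sub_tendsto_zero]
    have h2 := (tendsto_zero_iff_norm_tendsto_zero.1 h1).const_mul ε⁻¹
    rw [mul_zero] at h2
    refine squeeze_zero (fun _ => norm_nonneg _) (fun n => ?_) h2
    have e2 : charFun (μ n : Measure (EuclideanSpace ℝ (Fin m))) t = (((P.map hmap).real (A (u' n)))⁻¹ : ℝ) *
        ∫ k in A (u' n), Complex.exp (cen (P.map hmap) (u' n) (fun z => ∑ j, t j * ψ j z) k * Complex.I)
          ∂(P.map hmap) := by
      change charFun ((ProbabilityTheory.cond (P.map hmap) (A (u' n))).map (Y (u' n))) t = _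
      rw [charFun_apply, integral_map (mY _ (h0 n)).aemeasurable (by fun_prop), ProbabilityTheory.cond,
        integral_smul_measure, ENNReal.toReal_inv, Complex.real_smul]
      congr 1
      refine integral_congr_ae (ae_restrict_of_ae ?_)
      filter_upwards [cen_sum (P := P) (h0 n) t hψ] with ω hω
      simp only [hω, hY, PiLp.inner_apply]
      simp
    have e3 : (c : ℂ) = (((P.map hmap).real (A (u' n)))⁻¹ : ℝ) * ((c * (P.map hmap).real (A (u' n)) : ℝ) : ℂ) := by
      rw [← Complex.ofReal_mul]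
      congr 1
      have := (hp (u' n)).ne'
      field_simp
    rw [e2, e3, ← mul_sub, norm_mul, Complex.norm_real, Real.norm_of_nonneg (by positivity)]
    exact mul_le_mul_of_nonneg_right (inv_anti₀ hε (hA' _)) (norm_nonneg _)
  have h2 := ProbabilityMeasure.tendsto_iff_forall_integral_tendsto.1 hT φ
  refine h2.congr' (he.mono fun n hn => ?_)
  change ∫ x, φ x ∂(ProbabilityTheory.cond (P.map hmap) (A (u' n))).map (Y (u' n)) = _
  rw [integral_map (mY _ (h0 n)).aemeasurable φ.continuous.aestronglyMeasurable, hn]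
  rfl

theorem line {c : ℝ} (h1 : 1 < c) (h2 : c ≤ 2) :
    ∃ Q : Measure (Z2 → ℤ), IsProbabilityMeasure Q ∧ IsPlaneLimit c⁻¹ Q ∧ ∃ σ : ℝ, 0 ≤ σ ∧
      ConvGFF Q σ ∧ ConvH Q σ ∧
      Tendsto (fun n : ℕ => (∫ H, (H ((n : ℤ), -(n : ℤ)) : ℝ) ^ 2 ∂Q) / Real.log n)
        atTop (𝓝 (2 * σ ^ 2)) ∧ (√2 ≤ c → 0 < σ) := by
  obtain ⟨P, hP, hL, hB, H⟩ := P152N.exists_box h1 h2
  have hG := P152Z.good_of_box h1.le hB
  haveI : IsProbabilityMeasure (P.map ht) :=
    Measure.isProbabilityMeasure_map P152Z.tr_hm.aemeasurable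
  obtain ⟨σ, h0, a, b, hC, hχ⟩ := P152H.main_chi _ hG
  obtain ⟨a', b'⟩ := P152Z.transfer hG a b
  have pp := Real.pi_pos
  refine ⟨P.map hmap, Measure.isProbabilityMeasure_map hmap_meas.aemeasurable,
    P145W.plane_limW (one_pos.trans h1) fun R W hR hW hv g hg => H g hg R W hR (fun n v => ?_) hv,
    σ / √(8 * Real.pi), by positivity, P145W.convW hG b' a', convH hG b' hC hχ, P145W.log_var b',
    fun h => ?_⟩
  · rcases hW n v with e | e <;> rw [e]
    · exact P152N.mon_W0 h1.le v
    · exact P152N.Mon.tri ⟨zero_le_one, le_rfl, le_rfl, zero_le_one, one_pos⟩ v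
  · have := P145W.sig_pos h h2 hL h0 a'
    positivity

end Vale.Agent.P145H
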