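import Vale.Agent.P145.Defs

/-! The Dirichlet Gaussian free field of a half plane, given the heights on the other side. -/

open MeasureTheory Filter Topology

noncomputable section

namespace Vale.Agent.P145H

open Vale.Agent.P145

/-- The events determined by the heights at the vertices of the closed half plane `x + y ≤ 0`. -/
def low : MeasurableSpace (Z2 → ℤ) :=
  MeasurableSpace.comap (fun (H : Z2 → ℤ) (v : {v : Z2 // v.1 + v.2 ≤ 0}) => H v) inferInstance

/-- Smooth functions with compact support in the open half plane `x + y > 0`. -/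
def TestH (φ : ℂ → ℝ) : Prop :=
  ContDiff ℝ (⊤ : ℕ∞) φ ∧ HasCompactSupport φ ∧ tsupport φ ⊆ {z | 0 < z.re + z.im}

/-- A function minus its mirror image in the line `x + y = 0`. -/
def odd (φ : ℂ → ℝ) (z : ℂ) : ℝ := φ z - φ (-Complex.I * (starRingEnd ℂ) z)

/-- The Dirichlet covariance of the half plane, by the method of images. -/
def greenH (φ ψ : ℂ → ℝ) : ℝ := green (odd φ) (odd ψ) / 2

/-- The tested height minus its conditional mean given the heights in the closed half plane. -/
def cen (Q : Measure (Z2 → ℤ)) (δ : ℝ) (φ : ℂ → ℝ) (H : Z2 → ℤ) : ℝ :=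
  field δ φ H - condExp low Q (field δ φ) H

/-- Conditionally on any events of the closed half plane of probability bounded below, the centred
heights converge in law to `σ` times the Dirichlet Gaussian free field of the open half plane. -/
def ConvH (Q : Measure (Z2 → ℤ)) (σ : ℝ) : Prop :=
  ∀ (m : ℕ) (φ : Fin m → ℂ → ℝ), (∀ j, TestH (φ j)) →
    (Matrix.of fun j k => σ ^ 2 * greenH (φ j) (φ k)).PosSemidef ∧
    ∀ (ε : ℝ) (A : ℝ → Set (Z2 → ℤ)), 0 < ε → (∀ δ, MeasurableSet[low] (A δ)) →
      (∀ δ, ε ≤ Q.real (A δ)) → ∀ g : BoundedContinuousFunction (EuclideanSpace ℝ (Fin m)) ℝ,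
        Tendsto (fun δ => ∫ H, g (WithLp.toLp 2 fun j => cen Q δ (φ j) H)
          ∂(ProbabilityTheory.cond Q (A δ))) (𝓝[>] 0)
          (𝓝 (∫ x, g x ∂(ProbabilityTheory.multivariateGaussian 0
            (Matrix.of fun j k => σ ^ 2 * greenH (φ j) (φ k)))))

end Vale.Agent.P145H
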